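import Mathlib
namespace Vale.Agent.P047M
open Finset Polynomial Real

theorem integral_sin_deriv (Φ : ℝ[X]) :
    ∫ θ in (0 : ℝ)..π, sin θ * (derivative Φ).eval (cos θ) = Φ.eval 1 - Φ.eval (-1) := by
  have hderiv : ∀ θ ∈ Set.uIcc (0 : ℝ) π,
      HasDerivAt (fun θ => - Φ.eval (cos θ)) (sin θ * (derivative Φ).eval (cos θ)) θ := by
    intro θ _
    have h1 : HasDerivAt (fun θ => Φ.eval (cos θ)) ((derivative Φ).eval (cos θ) * (- sin θ)) θ :=
      (Φ.hasDerivAt (cos θ)).comp θ (Real.hasDerivAt_cos θ)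
    have h2 := h1.neg
    have e : sin θ * (derivative Φ).eval (cos θ) = -((derivative Φ).eval (cos θ) * (- sin θ)) := by
      ring
    rw [e]
    exact h2
  have hint : IntervalIntegrable (fun θ => sin θ * (derivative Φ).eval (cos θ)) MeasureTheory.volume 0 π := by
    apply Continuous.intervalIntegrable
    have : Continuous fun x : ℝ => (derivative Φ).eval x := (derivative Φ).continuous
    fun_prop
  rw [intervalIntegral.integral_eq_sub_of_hasDerivAt hderiv hint]
  simp
  ring

theorem integral_le (q : ℝ[X]) (hpos : ∀ x : ℝ, -1 ≤ x → x ≤ 1 → 0 ≤ (1 - x ^ 2) * q.eval x) :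
    ∫ θ in (0 : ℝ)..π, ((1 - X ^ 2 : ℝ[X]) * q).eval (cos θ)
      ≤ ∫ θ in (0 : ℝ)..π, sin θ * q.eval (cos θ) := by
  have hq : Continuous fun x : ℝ => q.eval x := q.continuous
  have hq2 : Continuous fun x : ℝ => ((1 - X ^ 2 : ℝ[X]) * q).eval x :=
    ((1 - X ^ 2 : ℝ[X]) * q).continuous
  apply intervalIntegral.integral_mono_on Real.pi_pos.le
  · apply Continuous.intervalIntegrable
    fun_prop
  · apply Continuous.intervalIntegrable
    fun_prop
  · intro θ hθ
    have hs0 : 0 ≤ sin θ := Real.sin_nonneg_of_nonneg_of_le_pi hθ.1 hθ.2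
    have hs1 : sin θ ≤ 1 := Real.sin_le_one θ
    have hc : 1 - cos θ ^ 2 = sin θ ^ 2 := by
      have := Real.sin_sq_add_cos_sq θ
      linarith
    have h0 := hpos (cos θ) (Real.neg_one_le_cos θ) (Real.cos_le_one θ)
    rw [hc] at h0
    have e : ((1 - X ^ 2 : ℝ[X]) * q).eval (cos θ) = sin θ * (sin θ * q.eval (cos θ)) := by
      simp only [eval_mul, eval_sub, eval_one, eval_pow, eval_X]
      rw [hc]
      ring
    rw [e]
    have h1 : 0 ≤ sin θ * q.eval (cos θ) := by
      rcases eq_or_lt_of_le hs0 with h | h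
      · rw [← h]
        simp
      · have : 0 ≤ sin θ * (sin θ * q.eval (cos θ)) := by
          have e2 : sin θ ^ 2 * q.eval (cos θ) = sin θ * (sin θ * q.eval (cos θ)) := by ring
          rw [← e2]
          exact h0
        exact nonneg_of_mul_nonneg_right this h
    exact mul_le_of_le_one_left h1 hs1

end Vale.Agent.P047M
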