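import Vale.Agent.Lib.P047M.TP2
namespace Vale.Agent.P047M
open Finset Polynomial Real

/-- T3. Equally spaced sums see only the constant term.  (Swap the sums; `m = 0` gives `(N+1) b0`, the
others vanish by `sum_cos_shift` with `α = m θ0`.) -/
theorem sum_isCosPoly (N : ℕ) (b0 : ℝ) (F : ℝ → ℝ) (h : IsCosPoly N b0 F) (θ0 : ℝ) :
    ∑ k ∈ range (N + 1), F (θ0 + 2 * π * k / (N + 1 : ℕ)) = (N + 1) * b0 := by
  obtain ⟨b, hb0, hF⟩ := h
  simp only [hF]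
  rw [Finset.sum_comm, Finset.sum_range_succ']
  have hrest : ∀ m ∈ range N, ∑ k ∈ range (N + 1),
      b (m + 1) * cos (((m + 1 : ℕ) : ℝ) * (θ0 + 2 * π * k / ((N + 1 : ℕ) : ℝ))) = 0 := by
    intro m hm
    rw [← Finset.mul_sum]
    have h1 := sum_cos_shift (N + 1) (m + 1) (Nat.succ_pos m)
      (by have := Finset.mem_range.mp hm; omega) (((m + 1 : ℕ) : ℝ) * θ0)
    have e : ∀ k : ℕ, ((m + 1 : ℕ) : ℝ) * (θ0 + 2 * π * k / ((N + 1 : ℕ) : ℝ))
        = ((m + 1 : ℕ) : ℝ) * θ0 + 2 * π * ((m + 1 : ℕ) : ℝ) * k / ((N + 1 : ℕ) : ℝ) := by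
      intro k
      ring
    simp only [e]
    rw [h1, mul_zero]
  rw [Finset.sum_eq_zero hrest, zero_add]
  simp [hb0]

end Vale.Agent.P047M
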