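import Vale.Agent.Lib.P047M.Trig
namespace Vale.Agent.P047M
open Finset Polynomial Real

/-- T4. The integral over `[0, π]` sees only the constant term.  (`∫_0^π cos (m θ) = sin (m π)/m = 0`.) -/
theorem integral_isCosPoly (N : ℕ) (b0 : ℝ) (F : ℝ → ℝ) (h : IsCosPoly N b0 F) :
    ∫ θ in (0 : ℝ)..π, F θ = π * b0 := by
  obtain ⟨b, hb0, hF⟩ := h
  simp only [hF]
  rw [intervalIntegral.integral_finsetSum]
  · have hterm : ∀ m ∈ range (N + 1), (∫ θ in (0 : ℝ)..π, b m * cos (m * θ)) =
        if m = 0 then π * b0 else 0 := by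
      intro m _
      rw [intervalIntegral.integral_const_mul]
      by_cases hm : m = 0
      · subst hm
        simp [hb0, mul_comm]
      · rw [if_neg hm]
        have hm' : (m : ℝ) ≠ 0 := by exact_mod_cast hm
        rw [intervalIntegral.integral_comp_mul_left _ hm', integral_cos]
        simp [Real.sin_nat_mul_pi]
    rw [Finset.sum_congr rfl hterm, Finset.sum_ite_eq' (range (N + 1)) 0]
    simp
  · intro m _
    exact (Continuous.intervalIntegrable (by fun_prop) _ _)

end Vale.Agent.P047M
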