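import Vale.Agent.Lib.P047M.TP1
import Vale.Agent.Lib.P047M.TP3
import Vale.Agent.Lib.P047M.TP4
namespace Vale.Agent.P047M
open Finset Polynomial Real

/-- T5. Fejer type bound: a polynomial of degree at most `N`, nonnegative on `[-1,1]`, satisfies
`P(0) ≤ (N+1)/π ∫_0^π P(cos θ) dθ`.  (Take `θ0 = π/2` in `sum_isCosPoly`: the term `k = 0` is `P(cos(π/2)) = P(0)`,
all terms are `≥ 0` since `cos ∈ [-1,1]`; `Finset.single_le_sum`; then `integral_isCosPoly`.) -/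
theorem fejer (P : ℝ[X]) (N : ℕ) (h : P.natDegree ≤ N)
    (hpos : ∀ x : ℝ, -1 ≤ x → x ≤ 1 → 0 ≤ P.eval x) :
    P.eval 0 ≤ (N + 1) / π * ∫ θ in (0 : ℝ)..π, P.eval (cos θ) := by
  obtain ⟨b0, hF⟩ := isCosPoly_eval P N h
  have hs := sum_isCosPoly N b0 _ hF (π / 2)
  have hi := integral_isCosPoly N b0 _ hF
  rw [hi]
  have h0 : P.eval 0 = (fun k : ℕ => P.eval (cos (π / 2 + 2 * π * k / (N + 1 : ℕ)))) 0 := by
    simp
  have h1 : (fun k : ℕ => P.eval (cos (π / 2 + 2 * π * k / (N + 1 : ℕ)))) 0 ≤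
      ∑ k ∈ range (N + 1), (fun k : ℕ => P.eval (cos (π / 2 + 2 * π * k / (N + 1 : ℕ)))) k :=
    Finset.single_le_sum (f := fun k : ℕ => P.eval (cos (π / 2 + 2 * π * k / (N + 1 : ℕ))))
      (fun k _ => hpos _ (neg_one_le_cos _) (cos_le_one _)) (by simp)
  rw [h0]
  refine h1.trans (le_of_eq ?_)
  rw [hs]
  field_simp

end Vale.Agent.P047M
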