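import Vale.Agent.Lib.P047.Biased
namespace Vale.Agent.P047M
open Finset Vale.Agent.P047

theorem sgn_mono {a b : Bool} (h : a ≤ b) : sgn a ≤ sgn b := by
  revert h
  cases a <;> cases b <;> intro h
  · exact le_refl _
  · simp only [sgn]; norm_num
  · exact absurd h (by decide)
  · exact le_refl _

/-- B1. Russo-Margulis: for a monotone `f` the biased mean is nondecreasing.
(`Biased.sum_cc_singleton` gives `(1 - r^2) dPhiFn f r = ∑_i cc r (sgn ∘ f) {i}`; by `Biased.cc_singleton` each
`cc r g {i} = (1 - r^2)/2 ∑_x wp r i x (sgn (x i) g x)`, where `wp` does not depend on `x i` and is `≥ 0`; pair `x` with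
`x` flipped at `i`: the two terms add up to `wp * (g(x^{i→1}) - g(x^{i→0})) ≥ 0`.  `Biased.cc_singleton'`, `Mk_nonneg`,
`Mk_sgn` may be even more convenient.) -/
theorem dPhi_nonneg {n : ℕ} (f : (Fin n → Bool) → Bool)
    (hmono : ∀ x y : Fin n → Bool, (∀ i, x i ≤ y i) → f x ≤ f y) (r : ℝ) (hr : |r| ≤ 1) :
    0 ≤ (1 - r ^ 2) * dPhiFn f r := by
  rw [← Biased.sum_cc_singleton]
  have hs : 0 ≤ 1 - r ^ 2 := by
    have := (sq_le_one_iff_abs_le_one r).mpr hr
    linarith
  refine Finset.sum_nonneg fun i _ => ?_
  rw [Biased.cc_singleton']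
  refine mul_nonneg (by linarith) (Finset.sum_nonneg fun x _ => Finset.sum_nonneg fun y _ => ?_)
  by_cases hM : Biased.Mk r i x y = 0
  · rw [hM, zero_mul]
  refine mul_nonneg (Biased.Mk_nonneg hr i x y) ?_
  have hM' : ∀ j ∈ (Finset.univ : Finset (Fin n)), (if j = i then (if x j = y j then (0 : ℝ) else 1)
      else (if x j = y j then Biased.wt r (x j) else 0)) ≠ 0 := Finset.prod_ne_zero_iff.mp hM
  have hi : x i ≠ y i := by
    have := hM' i (Finset.mem_univ i)
    rw [if_pos rfl] at this
    intro h
    rw [if_pos h] at this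
    exact this rfl
  have hj : ∀ j, j ≠ i → x j = y j := by
    intro j hji
    have := hM' j (Finset.mem_univ j)
    rw [if_neg hji] at this
    by_contra h
    rw [if_neg h] at this
    exact this rfl
  cases hx : x i
  · -- x i = false, y i = true, x ≤ y
    have hxy : ∀ j, x j ≤ y j := by
      intro j
      by_cases hji : j = i
      · subst hji; rw [hx]; exact Bool.false_le _
      · rw [hj j hji]
    have := sgn_mono (hmono x y hxy)
    have e : sgn false = -1 := by simp [sgn]
    rw [e]
    linarith
  · have hyx : ∀ j, y j ≤ x j := by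
      intro j
      by_cases hji : j = i
      · subst hji; rw [hx]; exact Bool.le_true _
      · rw [hj j hji]
    have := sgn_mono (hmono y x hyx)
    have e : sgn true = 1 := by simp [sgn]
    rw [e]
    linarith

end Vale.Agent.P047M
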