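import Vale.Agent.Lib.P047.Biased
namespace Vale.Agent.P047M
open Finset Polynomial Vale.Agent.P047

/-- the polynomial `∑_S fhat(S) X^|S|`. -/
noncomputable def PhiP {n : ℕ} (f : (Fin n → Bool) → Bool) : ℝ[X] :=
  ∑ S : Finset (Fin n), C (fhat f S) * X ^ S.card

/-- C1-C4 (these are proved for an identical definition in `Vale/Agent/Results/P047/LinearImprovement.lean`,
lemmas `PhiPoly_eval`, `PhiPoly_deriv_eval`, `PhiPoly_natDegree`, `PhiPoly_coeff_one`: copy the proofs). -/
theorem PhiP_eval {n : ℕ} (f : (Fin n → Bool) → Bool) (r : ℝ) : (PhiP f).eval r = PhiFn f r := by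
  unfold PhiP PhiFn
  rw [eval_finsetSum]
  simp

theorem PhiP_deriv_eval {n : ℕ} (f : (Fin n → Bool) → Bool) (r : ℝ) :
    (derivative (PhiP f)).eval r = dPhiFn f r := by
  unfold PhiP dPhiFn
  rw [derivative_sum, eval_finsetSum]
  apply Finset.sum_congr rfl
  intro S _
  simp only [derivative_mul, derivative_C, zero_mul, zero_add, derivative_X_pow, eval_mul, eval_C,
    eval_pow, eval_X]

theorem PhiP_natDegree {n d : ℕ} (f : (Fin n → Bool) → Bool) (hd : DegLE f d) :
    (PhiP f).natDegree ≤ d := by
  unfold PhiP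
  apply natDegree_sum_le_of_forall_le
  intro S _
  by_cases h : d < S.card
  · rw [hd S h]; simp
  · exact le_trans (natDegree_C_mul_X_pow_le _ _) (by omega)

/-- C4. -/
theorem dPhiFn_zero {n : ℕ} (f : (Fin n → Bool) → Bool) : dPhiFn f 0 = levelOne f := by
  unfold dPhiFn levelOne
  have h : ∀ S : Finset (Fin n), fhat f S * ((S.card : ℝ) * (0 : ℝ) ^ (S.card - 1))
      = if 1 = S.card then fhat f S else 0 := by
    intro S
    by_cases h1 : 1 = S.card
    · rw [if_pos h1, ← h1]; simp
    · rw [if_neg h1]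
      by_cases h0 : S.card = 0
      · rw [h0]; simp
      · rw [zero_pow (by omega)]; simp
  rw [Finset.sum_congr rfl (fun S _ => h S), ← Finset.sum_filter]
  have : (Finset.univ.filter (fun S : Finset (Fin n) => 1 = S.card))
      = Finset.univ.map ⟨fun i : Fin n => ({i} : Finset (Fin n)), Finset.singleton_injective⟩ := by
    ext S
    simp only [Finset.mem_filter, Finset.mem_univ, true_and, Finset.mem_map,
      Function.Embedding.coeFn_mk]
    constructor
    · intro h
      obtain ⟨a, ha⟩ := Finset.card_eq_one.mp h.symm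
      exact ⟨a, ha.symm⟩
    · rintro ⟨a, rfl⟩
      simp
  rw [this, Finset.sum_map]
  simp

end Vale.Agent.P047M
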