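import Vale.Agent.Lib.P047M.Fejer
import Vale.Agent.Lib.P047M.Ana
import Vale.Agent.Lib.P047M.Mono
import Vale.Agent.Lib.P047M.Poly
namespace Vale.Agent.P047M
open Finset Polynomial Real Vale.Agent.P047

theorem monotone_bound {n d : ℕ} (f : (Fin n → Bool) → Bool)
    (hmono : ∀ x y : Fin n → Bool, (∀ i, x i ≤ y i) → f x ≤ f y) (hd : DegLE f d) :
    levelOne f ≤ 2 * ((d : ℝ) + 2) / π := by
  set q : ℝ[X] := derivative (PhiP f) with hq
  set P : ℝ[X] := (1 - X ^ 2 : ℝ[X]) * q with hP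
  have hPdeg : P.natDegree ≤ d + 1 := by
    rcases Nat.eq_zero_or_pos d with h0 | hdpos
    · have hz : (PhiP f).natDegree = 0 := by
        have := PhiP_natDegree f hd
        omega
      have hq0 : q = 0 := by rw [hq]; exact derivative_of_natDegree_zero hz
      rw [hP, hq0, mul_zero, natDegree_zero]
      omega
    · have hqdeg : q.natDegree ≤ d - 1 :=
        le_trans (natDegree_derivative_le _) (Nat.sub_le_sub_right (PhiP_natDegree f hd) 1)
      have h1 : (1 - X ^ 2 : ℝ[X]).natDegree ≤ 2 := by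
        compute_degree
      have h2 : P.natDegree ≤ (1 - X ^ 2 : ℝ[X]).natDegree + q.natDegree := natDegree_mul_le
      omega
  have hpos' : ∀ x : ℝ, -1 ≤ x → x ≤ 1 → 0 ≤ (1 - x ^ 2) * q.eval x := by
    intro x h1 h2
    rw [hq, PhiP_deriv_eval]
    exact dPhi_nonneg f hmono x (abs_le.2 ⟨h1, h2⟩)
  have hpos : ∀ x : ℝ, -1 ≤ x → x ≤ 1 → 0 ≤ P.eval x := by
    intro x h1 h2
    have := hpos' x h1 h2
    simpa [hP] using this
  have h0 : P.eval 0 = levelOne f := by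
    simp only [hP, eval_mul, eval_sub, eval_one, eval_pow, eval_X]
    rw [hq, PhiP_deriv_eval, dPhiFn_zero]
    norm_num
  have hF := fejer P (d + 1) hPdeg hpos
  have hI := integral_le q hpos'
  have hA := integral_sin_deriv (PhiP f)
  have hb1 : (PhiP f).eval 1 ≤ 1 := by
    rw [PhiP_eval]
    exact (abs_le.1 (PhiFn_abs_le_one f (by norm_num))).2
  have hb2 : -1 ≤ (PhiP f).eval (-1) := by
    rw [PhiP_eval]
    exact (abs_le.1 (PhiFn_abs_le_one f (by norm_num))).1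
  have hint : ∫ θ in (0 : ℝ)..π, P.eval (cos θ) ≤ 2 := by
    calc ∫ θ in (0 : ℝ)..π, P.eval (cos θ) ≤ ∫ θ in (0 : ℝ)..π, sin θ * q.eval (cos θ) := hI
      _ = (PhiP f).eval 1 - (PhiP f).eval (-1) := hA
      _ ≤ 2 := by linarith
  have hc : (0 : ℝ) ≤ (((d + 1 : ℕ) : ℝ) + 1) / π := by positivity
  rw [h0] at hF
  calc levelOne f ≤ (((d + 1 : ℕ) : ℝ) + 1) / π * ∫ θ in (0 : ℝ)..π, P.eval (cos θ) := hF
    _ ≤ (((d + 1 : ℕ) : ℝ) + 1) / π * 2 := mul_le_mul_of_nonneg_left hint hc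
    _ = 2 * ((d : ℝ) + 2) / π := by push_cast; ring

end Vale.Agent.P047M
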