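import Vale.Agent.Lib.P047M.Trig
namespace Vale.Agent.P047M
open Finset Polynomial Real

/-- working form without the constant term -/
def CP (N : ℕ) (F : ℝ → ℝ) : Prop :=
  ∃ b : ℕ → ℝ, ∀ θ, F θ = ∑ m ∈ range (N + 1), b m * cos (m * θ)

theorem CP.add {N : ℕ} {F G : ℝ → ℝ} (hF : CP N F) (hG : CP N G) : CP N (fun θ => F θ + G θ) := by
  obtain ⟨b, hb⟩ := hF
  obtain ⟨c, hc⟩ := hG
  refine ⟨fun m => b m + c m, fun θ => ?_⟩
  show F θ + G θ = _
  rw [hb, hc, ← Finset.sum_add_distrib]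
  exact Finset.sum_congr rfl (fun m _ => by ring)

theorem CP.smul {N : ℕ} {F : ℝ → ℝ} (a : ℝ) (hF : CP N F) : CP N (fun θ => a * F θ) := by
  obtain ⟨b, hb⟩ := hF
  refine ⟨fun m => a * b m, fun θ => ?_⟩
  show a * F θ = _
  rw [hb, Finset.mul_sum]
  exact Finset.sum_congr rfl (fun m _ => by ring)

theorem CP.cos {N : ℕ} (m : ℕ) (hm : m ≤ N) : CP N (fun θ => Real.cos (m * θ)) := by
  refine ⟨fun k => if k = m then 1 else 0, fun θ => ?_⟩
  rw [Finset.sum_eq_single m]
  · simp
  · intro k _ hk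
    simp [hk]
  · intro h
    exact absurd (Finset.mem_range.mpr (by omega)) h

theorem CP.zero (N : ℕ) : CP N (fun _ => 0) := ⟨fun _ => 0, fun θ => by simp⟩

theorem CP.sum {N : ℕ} {ι : Type*} (s : Finset ι) (f : ι → ℝ → ℝ) (h : ∀ i ∈ s, CP N (f i)) :
    CP N (fun θ => ∑ i ∈ s, f i θ) := by
  classical
  induction s using Finset.induction_on with
  | empty => simpa using CP.zero N
  | insert a s ha ih =>
    have h1 := (h a (Finset.mem_insert_self a s)).add
      (ih (fun i hi => h i (Finset.mem_insert_of_mem hi)))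
    refine (congrArg (CP N) ?_).mp h1
    funext θ
    rw [Finset.sum_insert ha]

theorem CP.cos_mul {N : ℕ} {F : ℝ → ℝ} (hF : CP N F) : CP (N + 1) (fun θ => Real.cos θ * F θ) := by
  obtain ⟨b, hb⟩ := hF
  have h1 : (fun θ => Real.cos θ * F θ)
      = fun θ => ∑ m ∈ range (N + 1), (b m / 2) * (Real.cos (((m + 1 : ℕ) : ℝ) * θ)
          + Real.cos ((((if m = 0 then 1 else m - 1) : ℕ) : ℝ) * θ)) := by
    funext θ
    rw [hb, Finset.mul_sum]
    refine Finset.sum_congr rfl (fun m _ => ?_)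
    have e1 : ((m + 1 : ℕ) : ℝ) * θ = m * θ + θ := by
      push_cast
      ring
    have e2 : Real.cos ((((if m = 0 then 1 else m - 1) : ℕ) : ℝ) * θ) = Real.cos (m * θ - θ) := by
      rcases Nat.eq_zero_or_pos m with h | h
      · subst h
        simp
      · rw [if_neg (by omega)]
        congr 1
        rw [Nat.cast_sub h]
        push_cast
        ring
    rw [e1, e2, Real.cos_add, Real.cos_sub]
    ring
  rw [h1]
  refine CP.sum _ _ (fun m hm => ?_)
  have hm' := Finset.mem_range.mp hm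
  refine CP.smul _ (CP.add (CP.cos (m + 1) (by omega)) (CP.cos _ ?_))
  split_ifs <;> omega

theorem CP_eval (N : ℕ) : ∀ P : ℝ[X], P.natDegree ≤ N → CP N (fun θ => P.eval (Real.cos θ)) := by
  induction N with
  | zero =>
    intro P h
    rw [Polynomial.eq_C_of_natDegree_le_zero h]
    refine ⟨fun _ => P.coeff 0, fun θ => ?_⟩
    simp
  | succ N ih =>
    intro P h
    have hQ : P.divX.natDegree ≤ N := by
      rw [Polynomial.natDegree_divX_eq_natDegree_tsub_one]
      omega
    have h1 := (ih P.divX hQ).cos_mul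
    have h2 : CP (N + 1) (fun θ => P.coeff 0 * Real.cos (((0 : ℕ) : ℝ) * θ)) :=
      CP.smul _ (CP.cos 0 (Nat.zero_le _))
    refine (congrArg (CP (N + 1)) ?_).mp (h1.add h2)
    funext θ
    conv_rhs => rw [← Polynomial.divX_mul_X_add P]
    simp
    ring

/-- T1. `P(cos θ)` is a cosine polynomial of degree at most `N` when `natDegree P ≤ N`.
(Either by `Polynomial.Chebyshev.T_real_cos`, or: `cos^j` is a cosine polynomial of degree `j` by induction with
`cos θ cos mθ = (cos (m+1)θ + cos (m-1)θ)/2`, pad with zero coefficients, and sum with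
`Polynomial.eval_eq_sum_range'`.) -/
theorem isCosPoly_eval (P : ℝ[X]) (N : ℕ) (h : P.natDegree ≤ N) :
    ∃ b0 : ℝ, IsCosPoly N b0 (fun θ => P.eval (cos θ)) := by
  obtain ⟨b, hb⟩ := CP_eval N P h
  exact ⟨b 0, b, rfl, hb⟩

end Vale.Agent.P047M
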