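import Vale.Agent.Lib.P047M.Trig
namespace Vale.Agent.P047M
open Finset Polynomial Real

/-- T2. (Real part of a geometric sum of roots of unity: `ω = exp(2π i m / M) ≠ 1`, `ω^M = 1`.) -/
theorem sum_cos_shift (M m : ℕ) (hm0 : 0 < m) (hmM : m < M) (α : ℝ) :
    ∑ k ∈ range M, cos (α + 2 * π * m * k / M) = 0 := by
  have hM : (0 : ℝ) < M := by exact_mod_cast (lt_of_le_of_lt (Nat.zero_le _) hmM)
  have hm : (0 : ℝ) < m := by exact_mod_cast hm0
  have hmM' : (m : ℝ) < M := by exact_mod_cast hmM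
  set β : ℝ := 2 * π * m / M with hβ
  have hs : sin (β / 2) ≠ 0 := by
    have h1 : 0 < β / 2 := by positivity
    have h2 : β / 2 < π := by
      rw [hβ, div_div, div_lt_iff₀ (by positivity)]
      nlinarith [pi_pos]
    exact (sin_pos_of_pos_of_lt_pi h1 h2).ne'
  have key : ∀ k : ℕ, 2 * sin (β / 2) * cos (α + 2 * π * m * k / M)
      = sin (α + (((k + 1 : ℕ) : ℝ) - 1 / 2) * β) - sin (α + ((k : ℝ) - 1 / 2) * β) := by
    intro k
    have e1 : α + (((k + 1 : ℕ) : ℝ) - 1 / 2) * β = (α + k * β) + β / 2 := by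
      push_cast
      ring
    have e2 : α + ((k : ℝ) - 1 / 2) * β = (α + k * β) - β / 2 := by ring
    have e3 : α + 2 * π * m * k / M = α + k * β := by
      rw [hβ]
      ring
    rw [e1, e2, e3, sin_add, sin_sub]
    ring
  have hsum : 2 * sin (β / 2) * ∑ k ∈ range M, cos (α + 2 * π * m * k / M) = 0 := by
    rw [Finset.mul_sum, Finset.sum_congr rfl (fun k _ => key k),
      Finset.sum_range_sub (fun k : ℕ => sin (α + ((k : ℝ) - 1 / 2) * β))]
    have e4 : α + ((M : ℝ) - 1 / 2) * β = (α + (((0 : ℕ) : ℝ) - 1 / 2) * β) + m * (2 * π) := by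
      rw [hβ]
      field_simp
      push_cast
      ring
    rw [e4, sin_add_nat_mul_two_pi]
    ring
  rcases mul_eq_zero.mp hsum with h | h
  · exfalso
    apply hs
    linarith
  · exact h

end Vale.Agent.P047M
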