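import Mathlib

/-!
P047M: a Fejer type inequality for polynomials that are nonnegative on [-1,1].
-/

namespace Vale.Agent.P047M

open Finset Polynomial Real

/-- `F` is a cosine polynomial of degree at most `N` with constant term `b0`. -/
def IsCosPoly (N : ℕ) (b0 : ℝ) (F : ℝ → ℝ) : Prop :=
  ∃ b : ℕ → ℝ, b 0 = b0 ∧ ∀ θ, F θ = ∑ m ∈ range (N + 1), b m * cos (m * θ)

end Vale.Agent.P047M
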